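import Mathlib

/-! Moebius sums over the subsets of a finite set, and divisibility sequences with a law:
the visible primes of an index realise many profiles. -/

set_option linter.all false

namespace Vale.Agent.P027.L

section mob

variable {R : Type*} [CommRing R]

/-- the alternating sum over the subsets -/
def Mb (S : Finset ℕ) (f : Finset ℕ → R) : R :=
  ∑ T ∈ S.powerset, (-1) ^ (S \ T).card * f T

lemma Mb_empty (f : Finset ℕ → R) : Mb ∅ f = f ∅ := by
  simp [Mb]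

lemma Mb_congr {S : Finset ℕ} {f g : Finset ℕ → R} (h : ∀ T ⊆ S, f T = g T) : Mb S f = Mb S g := by
  unfold Mb
  refine Finset.sum_congr rfl (fun T hT => ?_)
  rw [h T (Finset.mem_powerset.1 hT)]

lemma Mb_insert {S : Finset ℕ} {r : ℕ} (hr : r ∉ S) (f : Finset ℕ → R) :
    Mb (insert r S) f = Mb S (fun T => f (insert r T)) - Mb S f := by
  classical
  unfold Mb
  rw [Finset.sum_powerset_insert hr]
  have h1 : ∑ T ∈ S.powerset, (-1 : R) ^ (insert r S \ T).card * f T =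
      -∑ T ∈ S.powerset, (-1 : R) ^ (S \ T).card * f T := by
    rw [← Finset.sum_neg_distrib]
    refine Finset.sum_congr rfl (fun T hT => ?_)
    rw [Finset.mem_powerset] at hT
    have hrT : r ∉ T := fun h => hr (hT h)
    rw [Finset.insert_sdiff_of_notMem _ hrT, Finset.card_insert_of_notMem
      (fun h => hr (Finset.mem_sdiff.1 h).1), pow_succ]
    ring
  have h2 : ∑ T ∈ S.powerset, (-1 : R) ^ (insert r S \ insert r T).card * f (insert r T) =
      ∑ T ∈ S.powerset, (-1 : R) ^ (S \ T).card * f (insert r T) := by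
    refine Finset.sum_congr rfl (fun T hT => ?_)
    rw [Finset.insert_sdiff_insert, Finset.sdiff_insert_of_notMem hr]
  rw [h1, h2]
  ring

lemma Mb_eq_zero {S : Finset ℕ} {r : ℕ} (hr : r ∈ S) {f : Finset ℕ → R}
    (h : ∀ T ⊆ S.erase r, f (insert r T) = f T) : Mb S f = 0 := by
  rw [← Finset.insert_erase hr, Mb_insert (Finset.notMem_erase _ _), Mb_congr h, sub_self]

lemma Mb_top {S : Finset ℕ} {f : Finset ℕ → R} (h : ∀ T ⊆ S, T ≠ S → f T = 0) :
    Mb S f = f S := by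
  unfold Mb
  rw [Finset.sum_eq_single S]
  · simp
  · intro T hT hne
    rw [h T (Finset.mem_powerset.1 hT) hne, mul_zero]
  · intro h
    exact absurd (Finset.mem_powerset.2 (Finset.Subset.refl S)) h

lemma Mb_sum {ι : Type*} (S : Finset ℕ) (U : Finset ι) (f : ι → Finset ℕ → R) :
    Mb S (fun T => ∑ q ∈ U, f q T) = ∑ q ∈ U, Mb S (f q) := by
  unfold Mb
  rw [Finset.sum_comm]
  refine Finset.sum_congr rfl (fun T _ => ?_)
  rw [Finset.mul_sum]

lemma Mb_mul (S : Finset ℕ) (f : Finset ℕ → R) (c : R) :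
    Mb S (fun T => f T * c) = Mb S f * c := by
  unfold Mb
  rw [Finset.sum_mul]
  refine Finset.sum_congr rfl (fun T _ => ?_)
  ring

end mob

/-- A divisibility sequence with a law modulo `p`; `w q n` is the multiplicity of `q` in the
`n`-th term, `od q` the order, `chi` the character, `phi` the law. Only the primes with nonzero
character matter. -/
structure DS (p : ℕ) where
  w : ℕ → ℕ → ℕ
  od : ℕ → ℕ
  chi : ℕ → ZMod p
  phi : ℕ → ZMod p
  good : ℕ → Prop
  good_dvd : ∀ {m n : ℕ}, m ∣ n → good n → good m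
  good_ne : ∀ {n : ℕ}, good n → n ≠ 0
  w_iff : ∀ {q n : ℕ}, q.Prime → chi q ≠ 0 → good n → (w q n ≠ 0 ↔ od q ∣ n)
  w_mul : ∀ {q m k : ℕ}, q.Prime → chi q ≠ 0 → good (m * k) → w q m ≠ 0 →
    w q (m * k) = w q m + padicValNat q k
  law : ∀ {n : ℕ}, good n → ∃ U : Finset ℕ, (∀ q ∈ U, q.Prime) ∧
    (∀ q, q.Prime → chi q ≠ 0 → w q n ≠ 0 → q ∈ U) ∧ ∑ q ∈ U, (w q n : ZMod p) * chi q = phi n

namespace DS

variable {p : ℕ} (D : DS p)

/-- `q` is visible at the index `n` -/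
def Vis (n q : ℕ) : Prop := q.Prime ∧ D.chi q ≠ 0 ∧ ((D.w q n : ℕ) : ZMod p) ≠ 0

/-- the primes of `C` at which the order of `q` is full in `n` -/
def Bq (C : Finset ℕ) (n q : ℕ) : Finset ℕ :=
  C.filter (fun r => padicValNat r (D.od q) = padicValNat r n)

lemma val_prod_primes (S : Finset ℕ) (hS : ∀ r ∈ S, r.Prime) {p : ℕ} (hp : p.Prime) :
    padicValNat p (∏ r ∈ S, r) = if p ∈ S then 1 else 0 := by
  classical
  have := Fact.mk hp
  induction S using Finset.induction_on with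
  | empty => simp
  | insert a S ha ih =>
    have hap := hS a (Finset.mem_insert_self _ _)
    have hS' : ∀ r ∈ S, r.Prime := fun r hr => hS r (Finset.mem_insert_of_mem hr)
    rw [Finset.prod_insert ha, padicValNat.mul hap.ne_zero
      (Finset.prod_ne_zero_iff.2 (fun q hq => (hS' q hq).ne_zero)), ih hS']
    by_cases hpa : p = a
    · subst hpa
      rw [if_neg ha, if_pos (Finset.mem_insert_self _ _)]
      simp
    · have h1 : padicValNat p a = 0 := by
        apply padicValNat.eq_zero_of_not_dvd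
        intro hd
        exact hpa ((Nat.prime_dvd_prime_iff_eq hp hap).1 hd)
      rw [h1, zero_add]
      by_cases hpS : p ∈ S
      · rw [if_pos hpS, if_pos (Finset.mem_insert_of_mem hpS)]
      · rw [if_neg hpS, if_neg (fun h => (Finset.mem_insert.1 h).elim hpa hpS)]

lemma val_base {N : ℕ} (hN : N ≠ 0) {T : Finset ℕ} (hT : ∀ r ∈ T, r.Prime) {p : ℕ}
    (hp : p.Prime) : padicValNat p (N * ∏ r ∈ T, r) = padicValNat p N + if p ∈ T then 1 else 0 := by
  have := Fact.mk hp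
  have h0 : ∏ q ∈ T, q ≠ 0 := Finset.prod_ne_zero_iff.2 (fun q hq => (hT q hq).ne_zero)
  rw [padicValNat.mul hN h0, val_prod_primes _ (fun r hr => hT r hr) hp]

/-- which subsets give indices divisible by `o` -/
lemma dvd_base_iff {N : ℕ} (hN : N ≠ 0) {R : Finset ℕ} (hR : ∀ r ∈ R, r.Prime) {o : ℕ}
    (ho : o ∣ N * ∏ r ∈ R, r) {T : Finset ℕ} (hT : T ⊆ R) :
    o ∣ N * ∏ r ∈ T, r ↔
      R.filter (fun r => padicValNat r o = padicValNat r (N * ∏ r ∈ R, r)) ⊆ T := by
  classical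
  have hT' : ∀ r ∈ T, r.Prime := fun r hr => hR r (hT hr)
  have hpR : ∏ r ∈ R, r ≠ 0 := Finset.prod_ne_zero_iff.2 (fun q hq => (hR q hq).ne_zero)
  have hpT : ∏ r ∈ T, r ≠ 0 := Finset.prod_ne_zero_iff.2 (fun q hq => (hT' q hq).ne_zero)
  have hnR : N * ∏ r ∈ R, r ≠ 0 := mul_ne_zero hN hpR
  have hnT : N * ∏ r ∈ T, r ≠ 0 := mul_ne_zero hN hpT
  have ho0 : o ≠ 0 := ne_zero_of_dvd_ne_zero hnR ho
  have hle : ∀ p : ℕ, p.Prime → padicValNat p o ≤ padicValNat p (N * ∏ r ∈ R, r) := by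
    intro p hp
    have := Fact.mk hp
    exact (padicValNat_dvd_iff_le hnR).1 (pow_padicValNat_dvd.trans ho)
  constructor
  · intro h r hr
    rw [Finset.mem_filter] at hr
    have hp := hR r hr.1
    have := Fact.mk hp
    have h1 : padicValNat r o ≤ padicValNat r (N * ∏ r ∈ T, r) :=
      (padicValNat_dvd_iff_le hnT).1 (pow_padicValNat_dvd.trans h)
    rw [hr.2, val_base hN hR hp, val_base hN hT' hp, if_pos hr.1] at h1
    by_contra hcon
    rw [if_neg hcon] at h1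
    omega
  · intro h
    rw [← Nat.factorization_prime_le_iff_dvd ho0 hnT]
    intro p hp
    rw [Nat.factorization_def _ hp, Nat.factorization_def _ hp]
    have h1 := hle p hp
    rw [val_base hN hR hp] at h1
    rw [val_base hN hT' hp]
    by_cases hpR : p ∈ R
    · by_cases hpT : p ∈ T
      · rw [if_pos hpT]; rw [if_pos hpR] at h1; exact h1
      · rw [if_neg hpT]
        rw [if_pos hpR] at h1
        have h2 : padicValNat p o ≠ padicValNat p (N * ∏ r ∈ R, r) := fun h3 =>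
          hpT (h (Finset.mem_filter.2 ⟨hpR, h3⟩))
        rw [val_base hN hR hp, if_pos hpR] at h2
        omega
    · rw [if_neg hpR] at h1
      rw [if_neg (fun h3 => hpR (hT h3))]
      exact h1

variable {D}

/-- the Moebius sum of one prime -/
lemma mob_one {N : ℕ} {S : Finset ℕ} (hS : ∀ r ∈ S, r.Prime) (hg : D.good (N * ∏ r ∈ S, r))
    {q : ℕ} (hq : q.Prime) (hc : D.chi q ≠ 0) (hne : Mb S (fun T => (D.w q (N * ∏ r ∈ T, r) : ZMod p)) ≠ 0) :
    D.w q (N * ∏ r ∈ S, r) ≠ 0 ∧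
      ((D.Bq S (N * ∏ r ∈ S, r) q = S ∧ ((D.w q (N * ∏ r ∈ S, r) : ℕ) : ZMod p) ≠ 0) ∨
      (q ∈ S ∧ D.Bq S (N * ∏ r ∈ S, r) q = S.erase q)) := by
  classical
  set n := N * ∏ r ∈ S, r with hn
  have hN : N ≠ 0 := left_ne_zero_of_mul (D.good_ne hg)
  have hdvd : ∀ {T T' : Finset ℕ}, T ⊆ T' → N * ∏ r ∈ T, r ∣ N * ∏ r ∈ T', r := by
    intro T T' h
    exact mul_dvd_mul_left _ (Finset.prod_dvd_prod_of_subset _ _ _ h)
  have hgT : ∀ T ⊆ S, D.good (N * ∏ r ∈ T, r) := fun T hT => D.good_dvd (hdvd hT) hg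
  have hwn : D.w q n ≠ 0 := by
    intro h0
    apply hne
    have : ∀ T ⊆ S, (D.w q (N * ∏ r ∈ T, r) : ZMod p) = (fun _ => (0 : ZMod p)) T := by
      intro T hT
      have h1 : D.w q (N * ∏ r ∈ T, r) = 0 := by
        by_contra h1
        exact ((D.w_iff hq hc hg).2 (((D.w_iff hq hc (hgT T hT)).1 h1).trans (hdvd hT))) h0
      rw [h1, Nat.cast_zero]
    rw [Mb_congr this]
    simp [Mb]
  have ho : D.od q ∣ n := (D.w_iff hq hc hg).1 hwn
  set B := D.Bq S n q with hB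
  have hBS : B ⊆ S := Finset.filter_subset _ _
  have key : ∀ T ⊆ S, (D.w q (N * ∏ r ∈ T, r) ≠ 0 ↔ B ⊆ T) := by
    intro T hT
    rw [D.w_iff hq hc (hgT T hT), dvd_base_iff hN hS ho hT]
    rfl
  refine ⟨hwn, ?_⟩
  by_cases h1 : B = S
  · left
    refine ⟨h1, ?_⟩
    intro h2
    apply hne
    rw [Mb_top]
    · exact h2
    · intro T hT hne'
      have : D.w q (N * ∏ r ∈ T, r) = 0 := by
        by_contra h3
        have := (key T hT).1 h3
        rw [h1] at this
        exact hne' (Finset.Subset.antisymm hT this)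
      rw [this, Nat.cast_zero]
  · right
    by_contra hcon
    apply hne
    obtain ⟨r, hrS, hrB, hrq⟩ : ∃ r ∈ S, r ∉ B ∧ r ≠ q := by
      by_contra h2
      push Not at h2
      apply hcon
      obtain ⟨r, hr1, hr2⟩ := Finset.exists_of_ssubset (lt_of_le_of_ne hBS h1)
      have hr3 := h2 r hr1 hr2
      subst hr3
      refine ⟨hr1, Finset.Subset.antisymm (fun s hs => Finset.mem_erase.2 ⟨?_, hBS hs⟩) ?_⟩
      · rintro rfl; exact hr2 hs
      · intro s hs
        rw [Finset.mem_erase] at hs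
        by_contra h3
        exact hs.1 (h2 s hs.2 h3)
    refine Mb_eq_zero hrS (fun T hT => ?_)
    have hrT : r ∉ T := fun h => Finset.notMem_erase _ _ (hT h)
    have hTS : T ⊆ S := hT.trans (Finset.erase_subset _ _)
    have hrTS : insert r T ⊆ S := Finset.insert_subset hrS hTS
    have e : N * ∏ s ∈ insert r T, s = (N * ∏ s ∈ T, s) * r := by
      rw [Finset.prod_insert hrT]; ring
    by_cases h0 : D.w q (N * ∏ s ∈ T, s) = 0
    · have h2 : D.w q (N * ∏ s ∈ insert r T, s) = 0 := by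
        by_contra h3
        have h4 := (key _ hrTS).1 h3
        exact (key T hTS).2 (fun s hs => (Finset.mem_insert.1 (h4 hs)).resolve_left
          (fun h5 => hrB (h5 ▸ hs))) h0
      rw [h0, h2]
    · have hval : padicValNat q r = 0 := by
        apply padicValNat.eq_zero_of_not_dvd
        intro hd
        exact hrq ((Nat.prime_dvd_prime_iff_eq hq (hS r hrS)).1 hd).symm
      have h2 := D.w_mul hq hc (k := r) (by rw [← e]; exact hgT _ hrTS) h0
      rw [← e, hval, add_zero] at h2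
      rw [h2]

/-- the Moebius sum of the law is carried by a prime -/
lemma exists_prime_of_mob {N : ℕ} {S : Finset ℕ} (hS : ∀ r ∈ S, r.Prime)
    (hg : D.good (N * ∏ r ∈ S, r)) (hne : Mb S (fun T => D.phi (N * ∏ r ∈ T, r)) ≠ 0) :
    ∃ q, q.Prime ∧ D.chi q ≠ 0 ∧ D.w q (N * ∏ r ∈ S, r) ≠ 0 ∧
      ((D.Bq S (N * ∏ r ∈ S, r) q = S ∧ ((D.w q (N * ∏ r ∈ S, r) : ℕ) : ZMod p) ≠ 0) ∨
      (q ∈ S ∧ D.Bq S (N * ∏ r ∈ S, r) q = S.erase q)) := by
  classical
  have hgT : ∀ T ⊆ S, D.good (N * ∏ r ∈ T, r) := fun T hT => D.good_dvd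
    (mul_dvd_mul_left _ (Finset.prod_dvd_prod_of_subset _ _ _ hT)) hg
  have hU : ∀ T : Finset ℕ, ∃ U : Finset ℕ, T ⊆ S → (∀ q ∈ U, q.Prime) ∧
      (∀ q, q.Prime → D.chi q ≠ 0 → D.w q (N * ∏ r ∈ T, r) ≠ 0 → q ∈ U) ∧
      ∑ q ∈ U, (D.w q (N * ∏ r ∈ T, r) : ZMod p) * D.chi q = D.phi (N * ∏ r ∈ T, r) := by
    intro T
    by_cases hT : T ⊆ S
    · obtain ⟨U, h⟩ := D.law (hgT T hT)
      exact ⟨U, fun _ => h⟩
    · exact ⟨∅, fun h => absurd h hT⟩
  choose U hU using hU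
  set V := S.powerset.biUnion U with hV
  have hVp : ∀ q ∈ V, q.Prime := by
    intro q hq
    rw [hV, Finset.mem_biUnion] at hq
    obtain ⟨T, hT, hq⟩ := hq
    exact (hU T (Finset.mem_powerset.1 hT)).1 q hq
  have hsum : ∀ T ⊆ S, D.phi (N * ∏ r ∈ T, r) =
      ∑ q ∈ V, (D.w q (N * ∏ r ∈ T, r) : ZMod p) * D.chi q := by
    intro T hT
    rw [← (hU T hT).2.2]
    refine Finset.sum_subset (Finset.subset_biUnion_of_mem _ (Finset.mem_powerset.2 hT)) ?_
    intro q hqV hqU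
    by_cases hc : D.chi q = 0
    · rw [hc, mul_zero]
    · have : D.w q (N * ∏ r ∈ T, r) = 0 := by
        by_contra h
        exact hqU ((hU T hT).2.1 q (hVp q hqV) hc h)
      rw [this, Nat.cast_zero, zero_mul]
  rw [Mb_congr hsum, Mb_sum] at hne
  obtain ⟨q, hq, hqne⟩ := Finset.exists_ne_zero_of_sum_ne_zero hne
  rw [Mb_mul] at hqne
  have hc : D.chi q ≠ 0 := right_ne_zero_of_mul hqne
  obtain ⟨h1, h2⟩ := mob_one hS hg (hVp q hq) hc (left_ne_zero_of_mul hqne)
  exact ⟨q, hVp q hq, hc, h1, h2⟩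

/-- a prime for every profile -/
theorem exists_profile {n : ℕ} (hn : D.good n) {C : Finset ℕ} (hC : ∀ r ∈ C, r.Prime) {N : ℕ}
    (hN : n = N * ∏ r ∈ C, r) {S : Finset ℕ} (hSC : S ⊆ C)
    (hne : Mb S (fun T => D.phi (N * ∏ r ∈ T, r)) ≠ 0) :
    ∃ q, (D.Vis n q ∧ q ∉ C ∧ D.Bq C n q = S) ∨ (q ∈ C ∧ D.Bq C n q = S) ∨
      (q ∈ C ∧ insert q (D.Bq C n q) = S) := by
  classical
  have hS : ∀ r ∈ S, r.Prime := fun r hr => hC r (hSC hr)
  have hn0 : n ≠ 0 := D.good_ne hn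
  have hN0 : N ≠ 0 := by rintro rfl; rw [zero_mul] at hN; exact hn0 hN
  have hdv : N * ∏ r ∈ S, r ∣ n := by
    rw [hN]
    exact mul_dvd_mul_left _ (Finset.prod_dvd_prod_of_subset _ _ _ hSC)
  have hgS : D.good (N * ∏ r ∈ S, r) := D.good_dvd hdv hn
  obtain ⟨q, hq, hc, hw, h⟩ := exists_prime_of_mob hS hgS hne
  have ho : D.od q ∣ N * ∏ r ∈ S, r := (D.w_iff hq hc hgS).1 hw
  have hle : ∀ r, r.Prime → padicValNat r (D.od q) ≤ padicValNat r (N * ∏ r ∈ S, r) := by
    intro r hr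
    have := Fact.mk hr
    exact (padicValNat_dvd_iff_le (D.good_ne hgS)).1 (pow_padicValNat_dvd.trans ho)
  have hB : D.Bq C n q = D.Bq S (N * ∏ r ∈ S, r) q := by
    ext r
    unfold Bq
    rw [Finset.mem_filter, Finset.mem_filter]
    constructor
    · rintro ⟨h1, h2⟩
      have h3 := hle r (hC r h1)
      rw [h2, hN, val_base hN0 hC (hC r h1), val_base hN0 hS (hC r h1), if_pos h1] at h3
      have hrS : r ∈ S := by
        by_contra hrS
        rw [if_neg hrS] at h3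
        omega
      refine ⟨hrS, ?_⟩
      rw [h2, hN, val_base hN0 hC (hC r h1), val_base hN0 hS (hC r h1), if_pos h1, if_pos hrS]
    · rintro ⟨h1, h2⟩
      refine ⟨hSC h1, ?_⟩
      rw [h2, hN, val_base hN0 hC (hS r h1), val_base hN0 hS (hS r h1), if_pos h1,
        if_pos (hSC h1)]
  refine ⟨q, ?_⟩
  rcases h with ⟨h1, h2⟩ | ⟨h1, h2⟩
  · by_cases hqC : q ∈ C
    · exact Or.inr (Or.inl ⟨hqC, by rw [hB]; exact h1⟩)
    · left
      refine ⟨⟨hq, hc, ?_⟩, hqC, by rw [hB]; exact h1⟩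
      obtain ⟨k, hk⟩ : ∃ k, k = ∏ r ∈ C \ S, r := ⟨_, rfl⟩
      have hnk : n = (N * ∏ r ∈ S, r) * k := by
        rw [hN, hk, mul_assoc, mul_comm (∏ r ∈ S, r), Finset.prod_sdiff hSC]
      have hCS : ∀ r ∈ C \ S, r.Prime := fun r hr => hC r (Finset.mem_sdiff.1 hr).1
      have h3 := D.w_mul hq hc (k := k) (by rw [← hnk]; exact hn) hw
      rw [← hnk, hk, val_prod_primes _ hCS hq, if_neg (fun h4 => hqC (Finset.mem_sdiff.1 h4).1),
        add_zero] at h3
      rw [h3]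
      exact h2
  · refine Or.inr (Or.inr ⟨hSC h1, ?_⟩)
    rw [hB, h2, Finset.insert_erase h1]

/-- the visible primes are at least as many as the good subsets, up to `2 |C|` -/
theorem card_vis {n : ℕ} (hn : D.good n) {C : Finset ℕ} (hC : ∀ r ∈ C, r.Prime) {N : ℕ}
    (hN : n = N * ∏ r ∈ C, r) {V : Finset ℕ} (hV : ∀ q, D.Vis n q → q ∉ C → q ∈ V)
    {F : Finset (Finset ℕ)} (hF : ∀ S ∈ F, S ⊆ C ∧ Mb S (fun T => D.phi (N * ∏ r ∈ T, r)) ≠ 0) :
    F.card ≤ V.card + 2 * C.card := by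
  classical
  have hsub : F ⊆ V.image (fun q => D.Bq C n q) ∪ (C.image (fun q => D.Bq C n q) ∪
      C.image (fun q => insert q (D.Bq C n q))) := by
    intro S hS
    obtain ⟨h1, h2⟩ := hF S hS
    obtain ⟨q, h⟩ := exists_profile hn hC hN h1 h2
    rw [Finset.mem_union, Finset.mem_union]
    rcases h with ⟨h3, h4, h5⟩ | ⟨h3, h4⟩ | ⟨h3, h4⟩
    · exact Or.inl (Finset.mem_image.2 ⟨q, hV q h3 h4, h5⟩)
    · exact Or.inr (Or.inl (Finset.mem_image.2 ⟨q, h3, h4⟩))
    · exact Or.inr (Or.inr (Finset.mem_image.2 ⟨q, h3, h4⟩))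
  have h1 := Finset.card_le_card hsub
  have h2 := Finset.card_union_le (V.image (fun q => D.Bq C n q)) (C.image (fun q => D.Bq C n q) ∪
      C.image (fun q => insert q (D.Bq C n q)))
  have h3 := Finset.card_union_le (C.image (fun q => D.Bq C n q))
    (C.image (fun q => insert q (D.Bq C n q)))
  have h4 : (V.image (fun q => D.Bq C n q)).card ≤ V.card := Finset.card_image_le
  have h5 : (C.image (fun q => D.Bq C n q)).card ≤ C.card := Finset.card_image_le
  have h6 : (C.image (fun q => insert q (D.Bq C n q))).card ≤ C.card := Finset.card_image_le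
  omega

end DS

/-! ### The two laws -/

/-- law of type 3: the value is `0` or `2` and each letter exchanges them -/
lemma mob_three {N : ℕ} {φ : ℕ → ZMod 3} {S : Finset ℕ} (hS : S.Nonempty)
    (h0 : φ N = 0 ∨ φ N = 2)
    (hφ : ∀ T ⊆ S, ∀ r ∈ S, r ∉ T → φ (N * ∏ s ∈ insert r T, s) = 2 - φ (N * ∏ s ∈ T, s)) :
    Mb S (fun T => φ (N * ∏ r ∈ T, r)) ≠ 0 := by
  classical
  have key : ∀ S' ⊆ S, Mb S' (fun T => φ (N * ∏ r ∈ T, r)) = if S' = ∅ then φ N else 2 + φ N := by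
    intro S'
    induction S' using Finset.induction_on with
    | empty => intro _; rw [Mb_empty]; simp
    | insert r S' hr ih =>
      intro hsub
      have hS' : S' ⊆ S := (Finset.subset_insert _ _).trans hsub
      have hrS : r ∈ S := hsub (Finset.mem_insert_self _ _)
      rw [Mb_insert hr, if_neg (Finset.insert_ne_empty _ _)]
      have e : Mb S' (fun T => φ (N * ∏ s ∈ insert r T, s)) =
          Mb S' (fun T => 2 - φ (N * ∏ s ∈ T, s)) :=
        Mb_congr (fun T hT => hφ T (hT.trans hS') r hrS (fun h => hr (hT h)))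
      have e2 : Mb S' (fun T => 2 - φ (N * ∏ s ∈ T, s)) =
          Mb S' (fun _ => (2 : ZMod 3)) - Mb S' (fun T => φ (N * ∏ s ∈ T, s)) := by
        unfold Mb
        rw [← Finset.sum_sub_distrib]
        exact Finset.sum_congr rfl (fun T _ => by ring)
      rw [e, e2, ih hS']
      by_cases h : S' = ∅
      · subst h
        rw [Mb_empty, if_pos rfl]
        rcases h0 with h0 | h0 <;> rw [h0] <;> decide
      · rw [if_neg h]
        obtain ⟨t, ht⟩ := Finset.nonempty_of_ne_empty h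
        rw [Mb_eq_zero ht (fun _ _ => rfl)]
        rcases h0 with h0 | h0 <;> rw [h0] <;> decide
  rw [key S (Finset.Subset.refl _), if_neg hS.ne_empty]
  rcases h0 with h0 | h0 <;> rw [h0] <;> decide

lemma Mb_add {R : Type*} [CommRing R] (S : Finset ℕ) (f g : Finset ℕ → R) :
    Mb S (fun T => f T + g T) = Mb S f + Mb S g := by
  unfold Mb
  rw [← Finset.sum_add_distrib]
  exact Finset.sum_congr rfl (fun T _ => by ring)

lemma Mb_sub {R : Type*} [CommRing R] (S : Finset ℕ) (f g : Finset ℕ → R) :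
    Mb S (fun T => f T - g T) = Mb S f - Mb S g := by
  unfold Mb
  rw [← Finset.sum_sub_distrib]
  exact Finset.sum_congr rfl (fun T _ => by ring)

lemma Mb_const {R : Type*} [CommRing R] {S : Finset ℕ} (hS : S.Nonempty) (a : R) :
    Mb S (fun _ => a) = 0 := by
  obtain ⟨t, ht⟩ := hS
  exact Mb_eq_zero ht (fun _ _ => rfl)

/-- law of type 2, pure form -/
lemma mob_two {c : ℕ → ZMod 3} {S : Finset ℕ} (hc : ∀ r ∈ S, c r ≠ 0) (x : ZMod 3) :
    Mb S (fun T => if x + ∑ s ∈ T, c s = 0 then (0 : ZMod 2) else 1) =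
      if x = ∑ s ∈ S, c s then 0 else 1 := by
  have dec : ∀ (a b x : ZMod 3), a ≠ 0 →
      ((if x + a = b then (0 : ZMod 2) else 1) - (if x = b then 0 else 1)) =
        if x = a + b then 0 else 1 := by decide
  induction S using Finset.induction_on generalizing x with
  | empty => rw [Mb_empty, Finset.sum_empty, add_zero]
  | insert r S' hr ih =>
    have hc' : ∀ r ∈ S', c r ≠ 0 := fun s hs => hc s (Finset.mem_insert_of_mem hs)
    rw [Mb_insert hr, ih hc']
    have e : Mb S' (fun T => if x + ∑ s ∈ insert r T, c s = 0 then (0 : ZMod 2) else 1) =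
        Mb S' (fun T => if (x + c r) + ∑ s ∈ T, c s = 0 then (0 : ZMod 2) else 1) :=
      Mb_congr (fun T hT => by
        rw [Finset.sum_insert (fun h => hr (hT h)), add_assoc])
    rw [e, ih hc' (x + c r), Finset.sum_insert hr]
    exact dec _ _ _ (hc r (Finset.mem_insert_self _ _))

/-- law of type 2 -/
lemma mob_two' {c : ℕ → ZMod 3} {S : Finset ℕ} (hS : S.Nonempty) (hc : ∀ r ∈ S, c r ≠ 0)
    (x b : ZMod 3) (hx : x - b ≠ ∑ s ∈ S, c s) :
    Mb S (fun T => if x + ∑ s ∈ T, c s = b then (1 : ZMod 2) else 0) ≠ 0 := by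
  have h1 := mob_two hc (x - b)
  rw [if_neg hx] at h1
  have dec : ∀ x y b : ZMod 3, (if x + y = b then (1 : ZMod 2) else 0) =
      1 - (if (x - b) + y = 0 then (0 : ZMod 2) else 1) := by decide
  rw [Mb_congr (fun T _ => dec x (∑ s ∈ T, c s) b), Mb_sub, Mb_const hS, h1]
  decide

/-- at least half of the subsets have a given sum different from `x` -/
lemma half_subsets {c : ℕ → ZMod 3} {C : Finset ℕ} (hC : C.Nonempty) (hc : ∀ r ∈ C, c r ≠ 0)
    (x : ZMod 3) :
    2 ^ (C.card - 1) ≤ (C.powerset.filter (fun S => x ≠ ∑ s ∈ S, c s)).card := by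
  classical
  obtain ⟨r, hr⟩ := hC
  have hcard : (C.erase r).powerset.card = 2 ^ (C.card - 1) := by
    rw [Finset.card_powerset, Finset.card_erase_of_mem hr]
  rw [← hcard]
  refine Finset.card_le_card_of_injOn
    (fun S => if x ≠ ∑ s ∈ S, c s then S else insert r S) ?_ ?_
  · intro S hS
    rw [Finset.mem_coe, Finset.mem_powerset] at hS
    rw [Finset.mem_coe, Finset.mem_filter, Finset.mem_powerset]
    have hrS : r ∉ S := fun h => Finset.notMem_erase _ _ (hS h)
    by_cases h : x ≠ ∑ s ∈ S, c s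
    · simp only [if_pos h]
      exact ⟨hS.trans (Finset.erase_subset _ _), h⟩
    · simp only [if_neg h]
      refine ⟨Finset.insert_subset hr (hS.trans (Finset.erase_subset _ _)), ?_⟩
      rw [Finset.sum_insert hrS]
      push Not at h
      rw [← h]
      intro h2
      exact hc r hr (by
        have : c r = x - x := by rw [eq_sub_iff_add_eq]; exact h2.symm
        rw [this, sub_self])
  · intro S hS S' hS' h
    rw [Finset.mem_coe, Finset.mem_powerset] at hS hS'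
    have hrS : r ∉ S := fun h => Finset.notMem_erase _ _ (hS h)
    have hrS' : r ∉ S' := fun h => Finset.notMem_erase _ _ (hS' h)
    have e1 : (if x ≠ ∑ s ∈ S, c s then S else insert r S).erase r = S := by
      split_ifs
      · exact Finset.erase_eq_of_notMem hrS
      · exact Finset.erase_insert hrS
    have e2 : (if x ≠ ∑ s ∈ S', c s then S' else insert r S').erase r = S' := by
      split_ifs
      · exact Finset.erase_eq_of_notMem hrS'
      · exact Finset.erase_insert hrS'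
    rw [← e1, ← e2]
    exact congrArg (fun A => Finset.erase A r) h

/-- third differences of a quadratic function vanish -/
lemma mob_sq {c : ℕ → ZMod 3} {S : Finset ℕ} {a₁ a₂ a₃ : ℕ} (h1 : a₁ ∈ S) (h2 : a₂ ∈ S)
    (h3 : a₃ ∈ S) (h12 : a₁ ≠ a₂) (h13 : a₁ ≠ a₃) (h23 : a₂ ≠ a₃) (x : ZMod 3) :
    Mb S (fun T => (x + ∑ s ∈ T, c s) ^ 2) = 0 := by
  classical
  have e1 : S = insert a₁ (S.erase a₁) := (Finset.insert_erase h1).symm
  have m2 : a₂ ∈ S.erase a₁ := Finset.mem_erase.2 ⟨h12.symm, h2⟩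
  have e2 : S.erase a₁ = insert a₂ ((S.erase a₁).erase a₂) := (Finset.insert_erase m2).symm
  have m3 : a₃ ∈ (S.erase a₁).erase a₂ := Finset.mem_erase.2 ⟨h23.symm, Finset.mem_erase.2 ⟨h13.symm, h3⟩⟩
  have e3 : (S.erase a₁).erase a₂ = insert a₃ (((S.erase a₁).erase a₂).erase a₃) :=
    (Finset.insert_erase m3).symm
  set S' := ((S.erase a₁).erase a₂).erase a₃ with hS'
  have n3 : a₃ ∉ S' := Finset.notMem_erase _ _
  have n2 : a₂ ∉ insert a₃ S' := by rw [← e3]; exact Finset.notMem_erase _ _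
  have n1 : a₁ ∉ insert a₂ (insert a₃ S') := by rw [← e3, ← e2]; exact Finset.notMem_erase _ _
  rw [e1, e2, e3, Mb_insert n1, Mb_insert n2, Mb_insert n2, Mb_insert n3, Mb_insert n3,
    Mb_insert n3, Mb_insert n3]
  have hf : ∀ T ⊆ S', a₃ ∉ T ∧ a₂ ∉ insert a₃ T ∧ a₂ ∉ T ∧ a₁ ∉ insert a₂ (insert a₃ T) ∧
      a₁ ∉ insert a₂ T ∧ a₁ ∉ insert a₃ T ∧ a₁ ∉ T := by
    intro T hT
    have k3 : a₃ ∉ T := fun h => n3 (hT h)
    have k2 : a₂ ∉ insert a₃ T := fun h => n2 (Finset.insert_subset_insert _ hT h)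
    have k1 : a₁ ∉ insert a₂ (insert a₃ T) := fun h =>
      n1 (Finset.insert_subset_insert _ (Finset.insert_subset_insert _ hT) h)
    refine ⟨k3, k2, fun h => k2 (Finset.mem_insert_of_mem h), k1, ?_, ?_, ?_⟩
    · intro h
      rw [Finset.mem_insert] at h
      exact k1 (Finset.mem_insert.2 (h.imp id (fun h => Finset.mem_insert_of_mem h)))
    · intro h
      exact k1 (Finset.mem_insert_of_mem h)
    · intro h
      exact k1 (Finset.mem_insert_of_mem (Finset.mem_insert_of_mem h))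
  have e : ∀ f1 f2 f3 f4 f5 f6 f7 f8 : Finset ℕ → ZMod 3,
      (∀ T ⊆ S', f1 T - f2 T - (f3 T - f4 T) - (f5 T - f6 T - (f7 T - f8 T)) = 0) →
      Mb S' f1 - Mb S' f2 - (Mb S' f3 - Mb S' f4) - (Mb S' f5 - Mb S' f6 - (Mb S' f7 - Mb S' f8)) = 0 := by
    intro f1 f2 f3 f4 f5 f6 f7 f8 h
    rw [← Mb_sub, ← Mb_sub, ← Mb_sub, ← Mb_sub, ← Mb_sub, ← Mb_sub, ← Mb_sub, Mb_congr h]
    simp [Mb]
  apply e
  intro T hT
  obtain ⟨k1, k2, k3, k4, k5, k6, k7⟩ := hf T hT
  have dec : ∀ x a b c : ZMod 3, (x + (a + (b + c))) ^ 2 - (x + (a + b)) ^ 2 -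
      ((x + (a + c)) ^ 2 - (x + a) ^ 2) - ((x + (b + c)) ^ 2 - (x + b) ^ 2 - ((x + c) ^ 2 - x ^ 2))
      = 0 := by decide
  simp only [Finset.sum_insert k4, Finset.sum_insert k2, Finset.sum_insert k1,
    Finset.sum_insert k5, Finset.sum_insert k3, Finset.sum_insert k6, Finset.sum_insert k7]
  have := dec (x + ∑ s ∈ T, c s) (c a₁) (c a₂) (c a₃)
  rw [← this]
  ring

namespace DS

/-- growth for a law of type 3 -/
theorem growth_three (D : DS 3) {n : ℕ} (hn : D.good n) {C : Finset ℕ} (h3 : 3 ≤ C.card)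
    (hC : ∀ r ∈ C, r.Prime ∧ r ∣ n) {φ₁ φ₂ : ℕ → ZMod 3}
    (hφ : ∀ m, D.good m → D.phi m = φ₁ m + φ₂ m)
    (h0 : ∀ m, D.good m → φ₁ m = 0 ∨ φ₁ m = 2)
    (h1 : ∀ m, ∀ r ∈ C, D.good (m * r) → φ₁ (m * r) = 2 - φ₁ m)
    (h2 : ∀ N, n = N * ∏ r ∈ C, r → ∃ (x : ZMod 3) (c : ℕ → ZMod 3) (e : ZMod 3) , ∀ T ⊆ C,
      φ₂ (N * ∏ s ∈ T, s) = e * (x + ∑ s ∈ T, c s) ^ 2 + (1 - e) * x)
    {V : Finset ℕ} (hV : ∀ q, D.Vis n q → q ∉ C → q ∈ V) :
    2 ^ (C.card - 3) ≤ V.card + 2 * C.card := by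
  classical
  obtain ⟨N, hN⟩ := Finset.prod_primes_dvd n (fun r hr => (hC r hr).1.prime)
    (fun r hr => (hC r hr).2)
  have hN' : n = N * ∏ r ∈ C, r := by rw [hN]; ring
  have hgT : ∀ T ⊆ C, D.good (N * ∏ s ∈ T, s) := by
    intro T hT
    refine D.good_dvd ?_ hn
    rw [hN']
    exact mul_dvd_mul_left _ (Finset.prod_dvd_prod_of_subset _ _ _ hT)
  obtain ⟨K, hKC, hK⟩ := Finset.exists_subset_card_eq h3
  have hcard : ((C \ K).powerset.image (fun T => T ∪ K)).card = 2 ^ (C.card - 3) := by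
    rw [Finset.card_image_of_injOn, Finset.card_powerset, Finset.card_sdiff_of_subset hKC, hK]
    intro T hT T' hT' h
    rw [Finset.mem_coe, Finset.mem_powerset] at hT hT'
    have e : ∀ T ⊆ C \ K, (T ∪ K) \ K = T := by
      intro T hT
      ext a
      rw [Finset.mem_sdiff, Finset.mem_union]
      constructor
      · rintro ⟨h | h, h'⟩
        · exact h
        · exact absurd h h'
      · intro h
        exact ⟨Or.inl h, (Finset.mem_sdiff.1 (hT h)).2⟩
    rw [← e T hT, ← e T' hT']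
    exact congrArg (fun A => A \ K) h
  rw [← hcard]
  refine card_vis (D := D) hn (fun r hr => (hC r hr).1) hN' hV ?_
  intro S hS
  rw [Finset.mem_image] at hS
  obtain ⟨T0, hT0, rfl⟩ := hS
  rw [Finset.mem_powerset] at hT0
  have hSC : T0 ∪ K ⊆ C := Finset.union_subset (hT0.trans Finset.sdiff_subset) hKC
  refine ⟨hSC, ?_⟩
  set S := T0 ∪ K with hS
  obtain ⟨a₁, a₂, a₃, h12, h13, h23, hKe⟩ := Finset.card_eq_three.1 hK
  have hKS : K ⊆ S := Finset.subset_union_right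
  have m1 : a₁ ∈ S := hKS (by rw [hKe]; simp)
  have m2 : a₂ ∈ S := hKS (by rw [hKe]; simp)
  have m3 : a₃ ∈ S := hKS (by rw [hKe]; simp)
  obtain ⟨x, c, e, hx⟩ := h2 N hN'
  rw [Mb_congr (g := fun T => φ₁ (N * ∏ s ∈ T, s) + (e * (x + ∑ s ∈ T, c s) ^ 2 + (1 - e) * x))
    (fun T hT => by rw [hφ _ (hgT T (hT.trans hSC)), hx T (hT.trans hSC)])]
  rw [Mb_add, Mb_add, Mb_const ⟨a₁, m1⟩]
  have e2 : Mb S (fun T => e * (x + ∑ s ∈ T, c s) ^ 2) = 0 := by
    have e3 : Mb S (fun T => e * (x + ∑ s ∈ T, c s) ^ 2) =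
        Mb S (fun T => (x + ∑ s ∈ T, c s) ^ 2 * e) := Mb_congr (fun T _ => by ring)
    rw [e3, Mb_mul, mob_sq m1 m2 m3 h12 h13 h23, zero_mul]
  rw [e2, add_zero, add_zero]
  refine mob_three ⟨a₁, m1⟩ (h0 N (D.good_dvd ⟨∏ r ∈ C, r, hN'⟩ hn)) ?_
  intro T hT r hr hrT
  have hsub : insert r T ⊆ C := Finset.insert_subset (hSC hr) (hT.trans hSC)
  have e : N * ∏ s ∈ insert r T, s = (N * ∏ s ∈ T, s) * r := by
    rw [Finset.prod_insert hrT]; ring
  rw [e]
  apply h1 _ r (hSC hr)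
  rw [← e]
  exact hgT _ hsub

/-- growth for a law of type 2 -/
theorem growth_two (D : DS 2) {n : ℕ} (hn : D.good n) {C : Finset ℕ} (hCne : C.Nonempty)
    (hC : ∀ r ∈ C, r.Prime ∧ r ∣ n) {c : ℕ → ZMod 3} (hc : ∀ r ∈ C, c r ≠ 0) (b : ZMod 3)
    (hφ : ∀ m, D.good m → D.phi m = if c m = b then 1 else 0)
    (hcm : ∀ m, ∀ r ∈ C, D.good (m * r) → c (m * r) = c m + c r)
    {V : Finset ℕ} (hV : ∀ q, D.Vis n q → q ∉ C → q ∈ V) :
    2 ^ (C.card - 1) ≤ V.card + 2 * C.card + 1 := by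
  classical
  obtain ⟨N, hN⟩ := Finset.prod_primes_dvd n (fun r hr => (hC r hr).1.prime)
    (fun r hr => (hC r hr).2)
  have hN' : n = N * ∏ r ∈ C, r := by rw [hN]; ring
  have hgT : ∀ T ⊆ C, D.good (N * ∏ s ∈ T, s) := by
    intro T hT
    refine D.good_dvd ?_ hn
    rw [hN']
    exact mul_dvd_mul_left _ (Finset.prod_dvd_prod_of_subset _ _ _ hT)
  have hcT : ∀ T ⊆ C, c (N * ∏ s ∈ T, s) = c N + ∑ s ∈ T, c s := by
    intro T
    induction T using Finset.induction_on with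
    | empty => intro _; simp
    | insert r T hr ih =>
      intro hT
      have e : N * ∏ s ∈ insert r T, s = (N * ∏ s ∈ T, s) * r := by
        rw [Finset.prod_insert hr]; ring
      have hg := hgT _ hT
      rw [e] at hg
      rw [e, hcm _ r (hT (Finset.mem_insert_self _ _)) hg,
        ih ((Finset.subset_insert _ _).trans hT), Finset.sum_insert hr]
      ring
  have h1 := half_subsets hCne hc (c N - b)
  set F := C.powerset.filter (fun S => c N - b ≠ ∑ s ∈ S, c s) with hF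
  have h2 : (F.erase ∅).card ≤ V.card + 2 * C.card := by
    refine card_vis (D := D) hn (fun r hr => (hC r hr).1) hN' hV ?_
    intro S hS
    rw [Finset.mem_erase, hF, Finset.mem_filter, Finset.mem_powerset] at hS
    obtain ⟨hS0, hSC, hSne⟩ := hS
    refine ⟨hSC, ?_⟩
    have hSn : S.Nonempty := Finset.nonempty_of_ne_empty hS0
    rw [Mb_congr (fun T hT => by
      rw [hφ _ (hgT T (hT.trans hSC)), hcT T (hT.trans hSC)])]
    exact mob_two' hSn (fun r hr => hc r (hSC hr)) (c N) b hSne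
  have h3 := Finset.pred_card_le_card_erase (s := F) (a := (∅ : Finset ℕ))
  omega

end DS

end Vale.Agent.P027.L
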