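import Vale.Agent.P027.H539.E.Two

/-! Tower growth. -/

set_option linter.all false

namespace Vale.Agent.P027.L

lemma tow_pos (k : ℕ) : 1 ≤ tow k := by
  cases k with
  | zero => exact le_refl _
  | succ k => exact Nat.one_le_two_pow

lemma tow_two (k : ℕ) : 2 ≤ tow (k + 1) := by
  show 2 ≤ 2 ^ tow k
  calc 2 = 2 ^ 1 := rfl
    _ ≤ 2 ^ tow k := Nat.pow_le_pow_right (by norm_num) (tow_pos k)

/-- the letters of type two -/
noncomputable def A2 (n : ℕ) : Finset ℕ :=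
  n.primeFactors.filter (fun q => (q % 8 = 3 ∨ q % 8 = 5) ∧ q ≠ 3)

/-- the letters of type three -/
noncomputable def A3 (n : ℕ) : Finset ℕ :=
  n.primeFactors.filter (fun q => (q % 7 = 2 ∨ q % 7 = 3 ∨ q % 7 = 4 ∨ q % 7 = 5) ∧ q ≠ 2 ∧ q ≠ 3)

lemma mem_A2 {n q : ℕ} (hn : n ≠ 0) : q ∈ A2 n ↔ Ty2 q ∧ q ∣ n := by
  unfold A2 Ty2
  rw [Finset.mem_filter, Nat.mem_primeFactors]
  tauto

lemma mem_A3 {n q : ℕ} (hn : n ≠ 0) : q ∈ A3 n ↔ Ty3 q ∧ q ∣ n := by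
  unfold A3 Ty3
  rw [Finset.mem_filter, Nat.mem_primeFactors]
  tauto

lemma grow_arith {k T v : ℕ} (hT : 2 ≤ T) (hk : T + 6 ≤ k) (h : 2 ^ (k - 3) ≤ v + 2 * k + 1) :
    2 ^ T + 6 ≤ v := by
  obtain ⟨e, rfl⟩ : ∃ e, k = T + 6 + e := ⟨k - (T + 6), by omega⟩
  have e1 : T + 6 + e - 3 = T + 3 + e := by omega
  rw [e1, pow_add, pow_add] at h
  have h1 : e + 1 ≤ 2 ^ e := Nat.lt_two_pow_self
  have h2 : T + 2 ≤ 2 ^ T := by
    obtain ⟨s, rfl⟩ : ∃ s, T = s + 2 := ⟨T - 2, by omega⟩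
    have : s + 1 ≤ 2 ^ s := Nat.lt_two_pow_self
    rw [pow_add]
    omega
  have h3 : 2 ^ T * 2 ^ 3 * (e + 1) ≤ 2 ^ T * 2 ^ 3 * 2 ^ e := Nat.mul_le_mul_left _ h1
  nlinarith [h3, h2, h, Nat.zero_le e, mul_nonneg (Nat.zero_le e) (Nat.zero_le (2 ^ T))]

lemma prod_ge {S : Finset ℕ} (hS : ∀ q ∈ S, q.Prime) : 2 ^ S.card ≤ ∏ q ∈ S, q := by
  rw [← Finset.prod_const]
  exact Finset.prod_le_prod' (fun q hq => (hS q hq).two_le)

theorem datTower : DatTower := by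
  intro d O D Z hodd h3 hstep
  have hZ0 : ∀ i, Z i ≠ 0 := by
    intro i h
    have := hodd i
    rw [h] at this
    simp at this
  -- the first cells
  have base : ∀ i, 8 ≤ (A2 (Z (i + 1))).card ∧ 8 ≤ (A3 (Z (i + 1))).card := by
    intro i
    obtain ⟨a, n', hn7, hna⟩ : ∃ a n' : ℕ, ¬ 7 ∣ n' ∧ Z i = 7 ^ a * n' :=
      Nat.exists_eq_pow_mul_and_not_dvd (hZ0 i) 7 (by norm_num)
    have h3n : 3 ^ 16 ∣ n' := by
      have h1 := h3 i
      rw [hna] at h1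
      exact (Nat.Coprime.dvd_of_dvd_mul_left (Nat.Coprime.pow _ _ (by norm_num)) h1)
    obtain ⟨M, rfl⟩ := h3n
    have hn : Z i = 3 ^ 16 * M * 7 ^ a := by rw [hna]; ring
    have hM2 : M % 2 = 1 := by
      have := hodd i
      rw [hn] at this
      exact odd_left (by rw [mul_comm]; exact odd_left this)
    have hM7 : M % 7 ≠ 0 := fun h => hn7 (dvd_mul_of_dvd_right (Nat.dvd_of_mod_eq_zero h) _)
    have hg2 : (3 ^ 16 * M) % 2 = 1 := by
      have := hodd i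
      rw [hn] at this
      exact odd_left this
    have hg7 : (3 ^ 16 * M) % 7 ≠ 0 := fun h => hn7 (Nat.dvd_of_mod_eq_zero h)
    have hw3 : ∀ m, m % 2 = 1 → padicValNat 3 (d m) = 0 := fun m hm =>
      padicValNat.eq_zero_of_not_dvd (fun h => D.three m hm (Nat.mod_eq_zero_of_dvd h))
    constructor
    · refine cells (D2 D) (f := f2) (M := M) (a := a) hn ⟨hg2, hg7⟩
        (fun m hm => law2_eq D.law2 hm.1) (fun m hm => hw3 m hm.1) ?_ (count2 hM2 hM7)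
      intro q hq
      obtain ⟨h1, h2⟩ := mem_of_vis2 D hg2 hq
      rw [mem_A2 (hZ0 _)]
      refine ⟨h1, hstep i q h1.1 ?_⟩
      have hw : padicValNat q (d (3 ^ 16 * M)) ≠ 0 := by
        intro h0
        rw [h0] at h2
        rcases h2 with h2 | h2 <;> simp at h2
      rw [val_seven D h1.1 (hodd i) hn hw]
      exact h2
    · refine cells (D3 D) (f := f3) (M := M) (a := a) hn hg2
        (fun m hm => law3_eq D.law3 hm) (fun m hm => hw3 m hm) ?_ (count3 hM2 hM7)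
      intro q hq
      obtain ⟨h1, h2⟩ := mem_of_vis3 D hg2 hq
      rw [mem_A3 (hZ0 _)]
      refine ⟨h1, hstep i q h1.1 ?_⟩
      have hw : padicValNat q (d (3 ^ 16 * M)) ≠ 0 := by
        intro h0
        rw [h0] at h2
        rcases h2 with h2 | h2 <;> simp at h2
      rw [val_seven D h1.1 (hodd i) hn hw]
      exact h2
  -- the induction
  have main : ∀ i, tow (i + 1) + 6 ≤ (A2 (Z (i + 1))).card ∧
      tow (i + 1) + 6 ≤ (A3 (Z (i + 1))).card := by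
    intro i
    induction i with
    | zero =>
      obtain ⟨h1, h2⟩ := base 0
      have e : tow (0 + 1) = 2 := rfl
      rw [e]
      exact ⟨h1, h2⟩
    | succ i ih =>
      obtain ⟨h1, h2⟩ := ih
      have ht := tow_two i
      constructor
      · have h := grow2 D (hodd (i + 1)) (C := A3 (Z (i + 1)))
          (Finset.card_pos.1 (by omega)) (fun r hr => (mem_A3 (hZ0 _)).1 hr)
          (V := A2 (Z (i + 1 + 1))) (fun q hq hv => (mem_A2 (hZ0 _)).2 ⟨hq, hstep _ q hq.1 hv⟩)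
        refine grow_arith ht h2 (le_trans (Nat.pow_le_pow_right (by norm_num) (by omega)) h)
      · have h := grow3 D (hodd (i + 1)) (C := A2 (Z (i + 1))) (by omega)
          (fun r hr => (mem_A2 (hZ0 _)).1 hr)
          (V := A3 (Z (i + 1 + 1))) (fun q hq hv => (mem_A3 (hZ0 _)).2 ⟨hq, hstep _ q hq.1 hv⟩)
        exact grow_arith ht h1 (by omega)
  intro i
  obtain ⟨h1, -⟩ := main i
  have hsub : ∏ q ∈ A2 (Z (i + 1)), q ∣ Z (i + 1) :=
    Finset.prod_primes_dvd _ (fun q hq => ((mem_A2 (hZ0 _)).1 hq).1.1.prime)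
      (fun q hq => ((mem_A2 (hZ0 _)).1 hq).2)
  calc tow (i + 2) = 2 ^ tow (i + 1) := rfl
    _ ≤ 2 ^ (A2 (Z (i + 1))).card := Nat.pow_le_pow_right (by norm_num) (by omega)
    _ ≤ ∏ q ∈ A2 (Z (i + 1)), q := prod_ge (fun q hq => ((mem_A2 (hZ0 _)).1 hq).1.1)
    _ ≤ Z (i + 1) := Nat.le_of_dvd (Nat.pos_of_ne_zero (hZ0 _)) hsub

end Vale.Agent.P027.L
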