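import Vale.Agent.P027.H539.E.Mob
import Vale.Agent.P027.L.Spec

/-! The two laws give growth of the numbers of visible primes. -/

set_option linter.all false

namespace Vale.Agent.P027.L

/-- the class modulo seven: discrete logarithm to base three modulo signs -/
def cl7 (m : ℕ) : ZMod 3 :=
  if m % 7 = 3 ∨ m % 7 = 4 then 1 else if m % 7 = 2 ∨ m % 7 = 5 then 2 else 0

/-- the class modulo eight -/
def c8 (m : ℕ) : ZMod 2 := if m % 8 = 3 ∨ m % 8 = 5 then 1 else 0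

lemma cl7_mul {a b : ℕ} (h : (a * b) % 7 ≠ 0) : cl7 (a * b) = cl7 a + cl7 b := by
  have ha : a % 7 < 7 := Nat.mod_lt _ (by norm_num)
  have hb : b % 7 < 7 := Nat.mod_lt _ (by norm_num)
  unfold cl7
  rw [Nat.mul_mod] at h ⊢
  generalize a % 7 = x at *
  generalize b % 7 = y at *
  revert h
  revert x y
  decide

lemma c8_mul {a b : ℕ} (h : (a * b) % 2 = 1) : c8 (a * b) = c8 a + c8 b := by
  have ha : a % 8 < 8 := Nat.mod_lt _ (by norm_num)
  have hb : b % 8 < 8 := Nat.mod_lt _ (by norm_num)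
  have h' : (a % 8 * (b % 8)) % 8 % 2 = 1 := by
    rw [← Nat.mul_mod, Nat.mod_mod_of_dvd _ (by norm_num)]
    exact h
  unfold c8
  rw [Nat.mul_mod]
  generalize a % 8 = x at *
  generalize b % 8 = y at *
  clear h
  revert h'
  revert x y
  decide

lemma cl7_ne {m : ℕ} : cl7 m ≠ 0 ↔ m % 7 ≠ 0 ∧ m % 7 ≠ 1 ∧ m % 7 ≠ 6 := by
  have ha : m % 7 < 7 := Nat.mod_lt _ (by norm_num)
  unfold cl7
  generalize m % 7 = x at *
  revert x
  decide

lemma c8_ne {m : ℕ} : c8 m ≠ 0 ↔ m % 8 = 3 ∨ m % 8 = 5 := by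
  unfold c8
  split_ifs with h
  · simp [h]
  · simp [h]

/-- an additive function on the prime factorisation -/
lemma sum_additive {p : ℕ} {f : ℕ → ZMod p} {P : ℕ → Prop} (h1 : f 1 = 0)
    (hm : ∀ a b, P (a * b) → P a ∧ P b ∧ f (a * b) = f a + f b) {U : Finset ℕ}
    (hU : ∀ q ∈ U, q.Prime) :
    ∀ d : ℕ, d ≠ 0 → P d → (∀ q, q.Prime → q ∣ d → q ∈ U) →
      f d = ∑ q ∈ U, (padicValNat q d : ZMod p) * f q := by
  intro d
  induction d using induction_on_primes with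
  | zero => intro h; exact absurd rfl h
  | one =>
    intro _ _ _
    rw [h1]
    simp
  | prime_mul q a hq ih =>
    intro h0 hP hd
    have ha : a ≠ 0 := right_ne_zero_of_mul h0
    obtain ⟨-, hPa, e⟩ := hm q a hP
    rw [e, ih ha hPa (fun r hr hra => hd r hr (dvd_mul_of_dvd_right hra q))]
    have hqU : q ∈ U := hd q hq (dvd_mul_right _ _)
    have e1 : ∀ r ∈ U, (padicValNat r (q * a) : ZMod p) * f r =
        (if r = q then f q else 0) + (padicValNat r a : ZMod p) * f r := by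
      intro r hr
      have hrp := hU r hr
      have := Fact.mk hrp
      rw [padicValNat.mul hq.ne_zero ha, Nat.cast_add, add_mul]
      congr 1
      by_cases hrq : r = q
      · subst hrq
        rw [if_pos rfl]
        simp
      · rw [if_neg hrq]
        have : padicValNat r q = 0 := padicValNat.eq_zero_of_not_dvd
          (fun h => hrq ((Nat.prime_dvd_prime_iff_eq hrp hq).1 h))
        rw [this, Nat.cast_zero, zero_mul]
    rw [Finset.sum_congr rfl e1, Finset.sum_add_distrib, Finset.sum_ite_eq' U q (fun _ => f q),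
      if_pos hqU]

lemma odd_left {m k : ℕ} (h : (m * k) % 2 = 1) : m % 2 = 1 := by
  rcases Nat.mod_two_eq_zero_or_one m with h1 | h1
  · rw [Nat.mul_mod, h1] at h; simp at h
  · exact h1

lemma seven_left {m k : ℕ} (h : (m * k) % 7 ≠ 0) : m % 7 ≠ 0 := by
  intro h1; apply h; rw [Nat.mul_mod, h1]; simp

/-- the value of the law modulo eight -/
def f2 (n : ℕ) : ZMod 2 := if n % 7 = 3 ∨ n % 7 = 4 ∨ n % 7 = 0 then 1 else 0

/-- the value of the law modulo seven -/
def f3 (n : ℕ) : ZMod 3 :=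
  (if n % 8 = 3 ∨ n % 8 = 5 then 2 else 0) + (if n % 7 = 0 then 2 else cl7 n ^ 2)

lemma law2_eq {d : ℕ → ℕ} (h : Law2 d) {n : ℕ} (hn : n % 2 = 1) : c8 (d n) = f2 n := by
  have h1 := h n hn
  unfold c8 f2
  by_cases h2 : d n % 8 = 3 ∨ d n % 8 = 5
  · rw [if_pos h2, if_pos (h1.1 h2)]
  · rw [if_neg h2, if_neg (fun h3 => h2 (h1.2 h3))]

lemma cl7_sq {d : ℕ} : (d ^ 2 % 7 = 1 → cl7 d = 0) ∧ (d ^ 2 % 7 = 2 → cl7 d = 1) ∧
    (d ^ 2 % 7 = 4 → cl7 d = 2) := by
  have h : d % 7 < 7 := Nat.mod_lt _ (by norm_num)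
  unfold cl7
  rw [Nat.pow_mod]
  generalize d % 7 = x at *
  revert x
  decide

lemma law3_eq {d : ℕ → ℕ} (h : Law3 d) {n : ℕ} (hn : n % 2 = 1) : cl7 (d n) = f3 n := by
  obtain ⟨e1, e2, e4⟩ := cl7_sq (d := d n)
  have hc0 : (n % 7 = 1 ∨ n % 7 = 6) → cl7 n ^ 2 = 0 := by
    intro h1; unfold cl7; rw [if_neg (by omega), if_neg (by omega)]; decide
  have hc1 : (n % 7 = 2 ∨ n % 7 = 3 ∨ n % 7 = 4 ∨ n % 7 = 5) → cl7 n ^ 2 = 1 := by
    intro h1; unfold cl7
    by_cases h2 : n % 7 = 3 ∨ n % 7 = 4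
    · rw [if_pos h2]; decide
    · rw [if_neg h2, if_pos (by omega)]; decide
  unfold f3
  rcases h n hn with ⟨h1, h2, h3⟩ | ⟨h1, h2, h3⟩ | ⟨h1, h2, h3⟩ | ⟨h1, h2, h3⟩ | ⟨h1, h2, h3⟩ |
    ⟨h1, h2, h3⟩
  · rw [e1 h3, if_neg (by omega), if_neg (by omega), hc0 h2]; decide
  · rw [e2 h3, if_neg (by omega), if_neg (by omega), hc1 h2]; decide
  · rw [e4 h3, if_neg (by omega), if_pos h2]; decide
  · rw [e4 h3, if_pos h1, if_neg (by omega), hc0 h2]; decide
  · rw [e1 h3, if_pos h1, if_neg (by omega), hc1 h2]; decide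
  · rw [e2 h3, if_pos h1, if_pos h2]; decide

open Classical in
/-- the order -/
noncomputable def odd' (O : ℕ → ℕ → Prop) (q : ℕ) : ℕ := if h : ∃ m, O q m then h.choose else 0

variable {d : ℕ → ℕ} {O : ℕ → ℕ → Prop}

lemma odd'_eq (D : Dat d O) {q m : ℕ} (h : O q m) : odd' O q = m := by
  have h1 : ∃ m, O q m := ⟨m, h⟩
  unfold odd'
  rw [dif_pos h1]
  exact D.uniq q _ _ h1.choose_spec h

lemma dn_ne (D : Dat d O) {n : ℕ} (hn : n % 2 = 1) : d n ≠ 0 := by
  have := D.odd n hn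
  omega

lemma w_iff' (D : Dat d O) {q n : ℕ} (hq : q.Prime) (hn : n % 2 = 1) :
    padicValNat q (d n) ≠ 0 ↔ odd' O q ∣ n := by
  have := Fact.mk hq
  constructor
  · intro h
    have hd : q ∣ d n := by
      by_contra h1
      exact h (padicValNat.eq_zero_of_not_dvd h1)
    obtain ⟨m, h1, h2⟩ := D.ex q n hq hn hd
    rw [odd'_eq D h1]
    exact h2
  · intro h
    by_cases h1 : ∃ m, O q m
    · obtain ⟨m, h1⟩ := h1
      rw [odd'_eq D h1] at h
      obtain ⟨h2, h3⟩ := D.val q m n hq h1 h hn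
      obtain ⟨k, rfl⟩ := h
      have hm := odd_left hn
      have h4 := one_le_padicValNat_of_dvd (dn_ne D hm) h2
      omega
    · unfold odd' at h
      rw [dif_neg h1] at h
      rw [Nat.zero_dvd.1 h] at hn
      simp at hn

lemma w_mul' (D : Dat d O) {q m k : ℕ} (hq : q.Prime) (hmk : (m * k) % 2 = 1)
    (hw : padicValNat q (d m) ≠ 0) :
    padicValNat q (d (m * k)) = padicValNat q (d m) + padicValNat q k := by
  have := Fact.mk hq
  have hm := odd_left hmk
  have hk : k ≠ 0 := by rintro rfl; simp at hmk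
  have hd : q ∣ d m := by
    by_contra h1
    exact hw (padicValNat.eq_zero_of_not_dvd h1)
  obtain ⟨o, h1, h2⟩ := D.ex q m hq hm hd
  obtain ⟨-, h3⟩ := D.val q o m hq h1 h2 hm
  obtain ⟨-, h4⟩ := D.val q o (m * k) hq h1 (h2.trans (dvd_mul_right _ _)) hmk
  have ho : 0 < o := Nat.pos_of_ne_zero (by rintro rfl; rw [Nat.zero_dvd.1 h2] at hm; simp at hm)
  have hmo : m / o ≠ 0 := by
    have := Nat.div_pos (Nat.le_of_dvd (by omega) h2) ho
    omega
  rw [Nat.mul_div_right_comm h2, padicValNat.mul hmo hk] at h4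
  omega

/-- the divisibility sequence of type three -/
noncomputable def D3 (D : Dat d O) : DS 3 where
  w := fun q n => padicValNat q (d n)
  od := odd' O
  chi := cl7
  phi := fun n => cl7 (d n)
  good := fun n => n % 2 = 1
  good_dvd := by
    rintro m n ⟨k, rfl⟩ hn
    exact odd_left hn
  good_ne := by intro n hn; omega
  w_iff := fun hq _ hn => w_iff' D hq hn
  w_mul := fun hq _ hmk hw => w_mul' D hq hmk hw
  law := by
    intro n hn
    have h0 := dn_ne D hn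
    refine ⟨(d n).primeFactors, fun q hq => Nat.prime_of_mem_primeFactors hq, ?_, ?_⟩
    · intro q hq _ hw
      refine Nat.mem_primeFactors.2 ⟨hq, ?_, h0⟩
      by_contra h
      exact hw (padicValNat.eq_zero_of_not_dvd h)
    · exact (sum_additive (P := fun a => a % 7 ≠ 0) (by decide)
        (fun a b hab => ⟨seven_left hab, seven_left (by rw [mul_comm] at hab; exact hab),
          cl7_mul hab⟩)
        (fun q hq => Nat.prime_of_mem_primeFactors hq) (d n) h0 (D.seven n hn)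
        (fun q hq hqd => Nat.mem_primeFactors.2 ⟨hq, hqd, h0⟩)).symm

/-- the divisibility sequence of type two -/
noncomputable def D2 (D : Dat d O) : DS 2 where
  w := fun q n => padicValNat q (d n)
  od := odd' O
  chi := c8
  phi := fun n => c8 (d n)
  good := fun n => n % 2 = 1 ∧ n % 7 ≠ 0
  good_dvd := by
    rintro m n ⟨k, rfl⟩ hn
    exact ⟨odd_left hn.1, seven_left hn.2⟩
  good_ne := by intro n hn; omega
  w_iff := fun hq _ hn => w_iff' D hq hn.1
  w_mul := fun hq _ hmk hw => w_mul' D hq hmk.1 hw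
  law := by
    intro n hn
    have h0 := dn_ne D hn.1
    refine ⟨(d n).primeFactors, fun q hq => Nat.prime_of_mem_primeFactors hq, ?_, ?_⟩
    · intro q hq _ hw
      refine Nat.mem_primeFactors.2 ⟨hq, ?_, h0⟩
      by_contra h
      exact hw (padicValNat.eq_zero_of_not_dvd h)
    · exact (sum_additive (P := fun a => a % 2 = 1) (by decide)
        (fun a b hab => ⟨odd_left hab, odd_left (by rw [mul_comm] at hab; exact hab),
          c8_mul hab⟩)
        (fun q hq => Nat.prime_of_mem_primeFactors hq) (d n) h0 (D.odd n hn.1)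
        (fun q hq hqd => Nat.mem_primeFactors.2 ⟨hq, hqd, h0⟩)).symm

lemma cl7_prod {N : ℕ} {T : Finset ℕ} (h : (N * ∏ s ∈ T, s) % 7 ≠ 0) :
    cl7 (N * ∏ s ∈ T, s) = cl7 N + ∑ s ∈ T, cl7 s := by
  induction T using Finset.induction_on with
  | empty => simp
  | insert r T hr ih =>
    have e : N * ∏ s ∈ insert r T, s = (N * ∏ s ∈ T, s) * r := by
      rw [Finset.prod_insert hr]; ring
    rw [e] at h ⊢
    rw [cl7_mul h, ih (seven_left h), Finset.sum_insert hr]
    ring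

lemma mem_of_vis3 (D : Dat d O) {n q : ℕ} (hn : n % 2 = 1) (h : (D3 D).Vis n q) :
    Ty3 q ∧ Vz q (padicValNat q (d n)) := by
  obtain ⟨hq, hc, hw⟩ := h
  have := Fact.mk hq
  have hc' : cl7 q ≠ 0 := hc
  have hw' : ((padicValNat q (d n) : ℕ) : ZMod 3) ≠ 0 := hw
  rw [cl7_ne] at hc'
  have hw0 : padicValNat q (d n) ≠ 0 := by intro h; apply hw'; rw [h]; simp
  have hqd : q ∣ d n := by
    by_contra h1
    exact hw0 (padicValNat.eq_zero_of_not_dvd h1)
  have h7 : q % 7 < 7 := Nat.mod_lt _ (by norm_num)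
  have ht : Ty3 q := by
    refine ⟨hq, by omega, ?_, ?_⟩
    · rintro rfl
      have := D.odd n hn
      have := Nat.mod_eq_zero_of_dvd hqd
      omega
    · rintro rfl
      exact D.three n hn (Nat.mod_eq_zero_of_dvd hqd)
  refine ⟨ht, Or.inr ⟨ht, ?_⟩⟩
  intro h
  apply hw'
  rw [ZMod.natCast_eq_zero_iff]
  exact Nat.dvd_of_mod_eq_zero h

lemma mem_of_vis2 (D : Dat d O) {n q : ℕ} (hn : n % 2 = 1) (h : (D2 D).Vis n q) :
    Ty2 q ∧ Vz q (padicValNat q (d n)) := by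
  obtain ⟨hq, hc, hw⟩ := h
  have := Fact.mk hq
  have hc' : c8 q ≠ 0 := hc
  have hw' : ((padicValNat q (d n) : ℕ) : ZMod 2) ≠ 0 := hw
  rw [c8_ne] at hc'
  have hw0 : padicValNat q (d n) ≠ 0 := by intro h; apply hw'; rw [h]; simp
  have hqd : q ∣ d n := by
    by_contra h1
    exact hw0 (padicValNat.eq_zero_of_not_dvd h1)
  have ht : Ty2 q := by
    refine ⟨hq, hc', ?_⟩
    rintro rfl
    exact D.three n hn (Nat.mod_eq_zero_of_dvd hqd)
  refine ⟨ht, Or.inl ⟨ht, ?_⟩⟩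
  rcases Nat.mod_two_eq_zero_or_one (padicValNat q (d n)) with h | h
  · exfalso
    apply hw'
    rw [ZMod.natCast_eq_zero_iff]
    exact Nat.dvd_of_mod_eq_zero h
  · exact h

/-- visible at the part prime to seven, visible -/
lemma val_seven (D : Dat d O) {q m a n : ℕ} (hq : q.Prime) (hn : n % 2 = 1) (h : n = m * 7 ^ a)
    (hw : padicValNat q (d m) ≠ 0) : padicValNat q (d n) = padicValNat q (d m) := by
  have := Fact.mk hq
  subst h
  rw [w_mul' D hq hn hw]
  have hm := odd_left hn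
  have hd : q ∣ d m := by
    by_contra h1
    exact hw (padicValNat.eq_zero_of_not_dvd h1)
  have h7 : q ≠ 7 := by
    rintro rfl
    exact D.seven m hm (Nat.mod_eq_zero_of_dvd hd)
  have : padicValNat q (7 ^ a) = 0 := padicValNat.eq_zero_of_not_dvd
    (fun h => h7 ((Nat.prime_dvd_prime_iff_eq hq (by norm_num)).1 (hq.dvd_of_dvd_pow h)))
  rw [this, add_zero]

/-- **Growth, type three** -/
theorem grow3 (D : Dat d O) {n : ℕ} (hn : n % 2 = 1) {C : Finset ℕ} (h3 : 3 ≤ C.card)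
    (hC : ∀ r ∈ C, Ty2 r ∧ r ∣ n) {V : Finset ℕ}
    (hV : ∀ q : ℕ, Ty3 q → Vz q (padicValNat q (d n)) → q ∈ V) :
    2 ^ (C.card - 3) ≤ V.card + 2 * C.card := by
  classical
  refine (D3 D).growth_three (n := n) hn h3 (fun r hr => ⟨(hC r hr).1.1, (hC r hr).2⟩)
    (φ₁ := fun n => if n % 8 = 3 ∨ n % 8 = 5 then 2 else 0)
    (φ₂ := fun n => if n % 7 = 0 then 2 else cl7 n ^ 2)
    (fun m hm => law3_eq D.law3 hm) ?_ ?_ ?_ ?_
  · intro m _
    split_ifs
    · exact Or.inr rfl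
    · exact Or.inl rfl
  · intro m r hr hmr
    have hmr' : (m * r) % 2 = 1 := hmr
    have hr8 := (hC r hr).1.2.1
    have hm := odd_left hmr'
    have e : (m * r) % 8 = ((m % 8) * (r % 8)) % 8 := Nat.mul_mod _ _ _
    have hm8 : m % 8 = 1 ∨ m % 8 = 3 ∨ m % 8 = 5 ∨ m % 8 = 7 := by omega
    rw [e]
    rcases hm8 with h | h | h | h <;> rcases hr8 with h' | h' <;> rw [h, h'] <;> decide
  · intro N hN
    have hr7 : ∀ r ∈ C, r % 7 ≠ 0 := by
      intro r hr h
      have h1 : (7 : ℕ) ∣ r := Nat.dvd_of_mod_eq_zero h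
      have h2 := (Nat.prime_dvd_prime_iff_eq (by norm_num) (hC r hr).1.1).1 h1
      have := (hC r hr).1.2.1
      omega
    by_cases h7 : N % 7 = 0
    · refine ⟨2, fun _ => 0, 0, fun T hT => ?_⟩
      have : (N * ∏ s ∈ T, s) % 7 = 0 := by rw [Nat.mul_mod, h7]; simp
      rw [if_pos this]
      ring
    · refine ⟨cl7 N, cl7, 1, fun T hT => ?_⟩
      have : (N * ∏ s ∈ T, s) % 7 ≠ 0 := by
        intro h
        have h1 : 7 ∣ N * ∏ s ∈ T, s := Nat.dvd_of_mod_eq_zero h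
        rcases (Nat.Prime.dvd_mul (by norm_num)).1 h1 with h2 | h2
        · exact h7 (Nat.mod_eq_zero_of_dvd h2)
        · obtain ⟨s, hs, hs2⟩ := (Nat.Prime.prime (by norm_num)).exists_mem_finset_dvd h2
          exact hr7 s (hT hs) (Nat.mod_eq_zero_of_dvd hs2)
      rw [if_neg this, cl7_prod this]
      ring
  · intro q h _
    obtain ⟨h1, h2⟩ := mem_of_vis3 D hn h
    exact hV q h1 h2

/-- **Growth, type two** -/
theorem grow2 (D : Dat d O) {n : ℕ} (hn : n % 2 = 1) {C : Finset ℕ} (hCne : C.Nonempty)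
    (hC : ∀ r ∈ C, Ty3 r ∧ r ∣ n) {V : Finset ℕ}
    (hV : ∀ q : ℕ, Ty2 q → Vz q (padicValNat q (d n)) → q ∈ V) :
    2 ^ (C.card - 1) ≤ V.card + 2 * C.card + 1 := by
  classical
  obtain ⟨a, n', hn7, hna⟩ : ∃ a n' : ℕ, ¬ 7 ∣ n' ∧ n = 7 ^ a * n' :=
    Nat.exists_eq_pow_mul_and_not_dvd (by omega) 7 (by norm_num)
  have hn'2 : n' % 2 = 1 := by
    rw [hna, mul_comm] at hn
    exact odd_left hn
  have hn'7 : n' % 7 ≠ 0 := fun h => hn7 (Nat.dvd_of_mod_eq_zero h)
  have hC' : ∀ r ∈ C, r.Prime ∧ r ∣ n' := by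
    intro r hr
    obtain ⟨⟨h1, h3, -⟩, h2⟩ := hC r hr
    refine ⟨h1, ?_⟩
    rw [hna] at h2
    rcases h1.dvd_mul.1 h2 with h | h
    · have := (Nat.prime_dvd_prime_iff_eq h1 (by norm_num)).1 (h1.dvd_of_dvd_pow h)
      subst this
      simp at h3
    · exact h
  refine (D2 D).growth_two (n := n') ⟨hn'2, hn'7⟩ hCne hC' (c := cl7)
    (fun r hr => cl7_ne.2 ?_) 1 ?_ ?_ ?_
  · have := (hC r hr).1.2.1
    omega
  · intro m hm
    have e : (D2 D).phi m = f2 m := law2_eq D.law2 hm.1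
    rw [e]
    have h3 : cl7 m = 1 ↔ (m % 7 = 3 ∨ m % 7 = 4) := by
      unfold cl7
      split_ifs with h4 h5
      · simp [h4]
      · simp only [h4, iff_false]; decide
      · simp only [h4, iff_false]; decide
    have hm7 := hm.2
    unfold f2
    by_cases h5 : cl7 m = 1
    · rw [if_pos h5, if_pos (by rw [h3] at h5; tauto)]
    · rw [if_neg h5, if_neg (by rw [h3] at h5; tauto)]
  · intro m r _ hmr
    exact cl7_mul hmr.2
  · intro q h _
    obtain ⟨h1, h2⟩ := mem_of_vis2 D hn'2 h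
    have hw : padicValNat q (d n') ≠ 0 := by
      intro h0
      rw [h0] at h2
      rcases h2 with h2 | h2 <;> simp at h2
    refine hV q h1 ?_
    rw [val_seven D h1.1 hn (by rw [hna]; ring) hw]
    exact h2

/-- one cell of exact order at three -/
lemma cell {p : ℕ} (E : DS p) {N n : ℕ} (hn : E.good n) {k : ℕ} (hk : n = N * 3 * k)
    (h3 : ∀ m, E.good m → E.w 3 m = 0) (hkv : ∀ q, q.Prime → E.chi q ≠ 0 → E.w q (N * 3) ≠ 0 →
      padicValNat q k = 0) (hne : E.phi (N * 3) ≠ E.phi N) :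
    ∃ q, E.Vis n q ∧ padicValNat 3 (E.od q) = padicValNat 3 (N * 3) := by
  have hg : E.good (N * 3) := E.good_dvd ⟨k, hk⟩ hn
  have hM : Mb {3} (fun T => E.phi (N * ∏ r ∈ T, r)) ≠ 0 := by
    have : Mb {3} (fun T => E.phi (N * ∏ r ∈ T, r)) = E.phi (N * 3) - E.phi N := by
      rw [show ({3} : Finset ℕ) = insert 3 ∅ from (insert_empty_eq (3 : ℕ)).symm, Mb_insert (Finset.notMem_empty 3), Mb_empty, Mb_empty]
      simp
    rw [this]
    exact sub_ne_zero.2 hne
  obtain ⟨q, hq, hc, hw, h⟩ := DS.exists_prime_of_mob (D := E) (N := N) (S := {3})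
    (fun r hr => by rw [Finset.mem_singleton.1 hr]; norm_num)
    (by rw [Finset.prod_singleton]; exact hg) hM
  rw [Finset.prod_singleton] at hw h
  rcases h with ⟨h1, h2⟩ | ⟨h1, -⟩
  · refine ⟨q, ⟨hq, hc, ?_⟩, ?_⟩
    · have := E.w_mul hq hc (k := k) (by rw [← hk]; exact hn) hw
      rw [hk, this, hkv q hq hc hw, add_zero]
      exact h2
    · have : 3 ∈ E.Bq {3} (N * 3) q := by rw [h1]; exact Finset.mem_singleton_self 3
      exact (Finset.mem_filter.1 this).2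
  · rw [Finset.mem_singleton] at h1
    subst h1
    exact absurd (h3 _ hg) hw

/-- many first cells -/
lemma cells {p : ℕ} (E : DS p) {f : ℕ → ZMod p} {M a n : ℕ} (hn : n = 3 ^ 16 * M * 7 ^ a)
    (hg : E.good (3 ^ 16 * M)) (hf : ∀ m, E.good m → E.phi m = f m)
    (h3 : ∀ m, E.good m → E.w 3 m = 0)
    {V : Finset ℕ} (hV : ∀ q, E.Vis (3 ^ 16 * M) q → q ∈ V)
    (h8 : 8 ≤ ((Finset.range 16).filter (fun j => f (M * 3 ^ j * 3) ≠ f (M * 3 ^ j))).card) :
    8 ≤ V.card := by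
  classical
  have hM0 : M ≠ 0 := right_ne_zero_of_mul (E.good_ne hg)
  have key : ∀ j, ∃ q, j ∈ (Finset.range 16).filter (fun j => f (M * 3 ^ j * 3) ≠ f (M * 3 ^ j)) →
      q ∈ V ∧ padicValNat 3 (E.od q) = padicValNat 3 M + (j + 1) := by
    intro j
    by_cases hj : j ∈ (Finset.range 16).filter (fun j => f (M * 3 ^ j * 3) ≠ f (M * 3 ^ j))
    · rw [Finset.mem_filter, Finset.mem_range] at hj
      obtain ⟨hj, hne⟩ := hj
      have e : 3 ^ 16 * M = (M * 3 ^ j) * 3 * 3 ^ (15 - j) := by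
        have : 3 ^ 16 = 3 ^ j * 3 * 3 ^ (15 - j) := by
          rw [← pow_succ, ← pow_add]
          congr 1
          omega
        rw [this]; ring
      have hgs : E.good (M * 3 ^ j * 3) := E.good_dvd ⟨_, e⟩ hg
      have hgs' : E.good (M * 3 ^ j) := E.good_dvd (dvd_mul_right _ _) hgs
      obtain ⟨q, h1, h2⟩ := cell E hg e h3 (by
        intro q hq hc hw
        apply padicValNat.eq_zero_of_not_dvd
        intro h
        have h4 := (Nat.prime_dvd_prime_iff_eq hq (by norm_num)).1 (hq.dvd_of_dvd_pow h)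
        subst h4
        exact hw (h3 _ hgs)) (by rw [hf _ hgs, hf _ hgs']; exact hne)
      refine ⟨q, fun _ => ⟨hV q h1, ?_⟩⟩
      rw [h2]
      have := Fact.mk (show Nat.Prime 3 by norm_num)
      rw [mul_assoc, ← pow_succ, padicValNat.mul hM0 (by positivity), padicValNat.prime_pow]
    · exact ⟨0, fun h => absurd h hj⟩
  choose g hg' using key
  refine h8.trans ?_
  refine Finset.card_le_card_of_injOn g (fun j hj => (hg' j hj).1) ?_
  intro j hj j' hj' h
  have h1 := (hg' j hj).2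
  have h2 := (hg' j' hj').2
  rw [h] at h1
  omega

lemma f2_mod (n : ℕ) : f2 n = f2 (n % 56) := by
  unfold f2
  rw [Nat.mod_mod_of_dvd n (by norm_num : 7 ∣ 56)]

lemma cl7_mod (n : ℕ) : cl7 n = cl7 (n % 56) := by
  unfold cl7
  rw [Nat.mod_mod_of_dvd n (by norm_num : 7 ∣ 56)]

lemma f3_mod (n : ℕ) : f3 n = f3 (n % 56) := by
  unfold f3
  rw [Nat.mod_mod_of_dvd n (by norm_num : 7 ∣ 56), Nat.mod_mod_of_dvd n (by norm_num : 8 ∣ 56),
    ← cl7_mod]

lemma count2 {M : ℕ} (h2 : M % 2 = 1) (h7 : M % 7 ≠ 0) :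
    8 ≤ ((Finset.range 16).filter (fun j => f2 (M * 3 ^ j * 3) ≠ f2 (M * 3 ^ j))).card := by
  have e : ∀ j, (f2 (M * 3 ^ j * 3) ≠ f2 (M * 3 ^ j)) ↔
      (f2 ((M % 56) * 3 ^ j * 3) ≠ f2 ((M % 56) * 3 ^ j)) := by
    intro j
    have e1 : f2 (M * 3 ^ j * 3) = f2 ((M % 56) * 3 ^ j * 3) := by
      rw [f2_mod, f2_mod ((M % 56) * 3 ^ j * 3)]
      congr 1
      simp [Nat.mul_mod]
    have e2 : f2 (M * 3 ^ j) = f2 ((M % 56) * 3 ^ j) := by
      rw [f2_mod, f2_mod ((M % 56) * 3 ^ j)]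
      congr 1
      simp [Nat.mul_mod]
    rw [e1, e2]
  rw [Finset.filter_congr (fun j _ => e j)]
  have h56 : M % 56 < 56 := Nat.mod_lt _ (by norm_num)
  have h2' : M % 56 % 2 = 1 := by rw [Nat.mod_mod_of_dvd _ (by norm_num)]; exact h2
  have h7' : M % 56 % 7 ≠ 0 := by rw [Nat.mod_mod_of_dvd _ (by norm_num)]; exact h7
  generalize M % 56 = x at *
  clear e h2 h7
  revert x
  decide +kernel

lemma count3 {M : ℕ} (h2 : M % 2 = 1) (h7 : M % 7 ≠ 0) :
    8 ≤ ((Finset.range 16).filter (fun j => f3 (M * 3 ^ j * 3) ≠ f3 (M * 3 ^ j))).card := by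
  have e : ∀ j, (f3 (M * 3 ^ j * 3) ≠ f3 (M * 3 ^ j)) ↔
      (f3 ((M % 56) * 3 ^ j * 3) ≠ f3 ((M % 56) * 3 ^ j)) := by
    intro j
    have e1 : f3 (M * 3 ^ j * 3) = f3 ((M % 56) * 3 ^ j * 3) := by
      rw [f3_mod, f3_mod ((M % 56) * 3 ^ j * 3)]
      congr 1
      simp [Nat.mul_mod]
    have e2 : f3 (M * 3 ^ j) = f3 ((M % 56) * 3 ^ j) := by
      rw [f3_mod, f3_mod ((M % 56) * 3 ^ j)]
      congr 1
      simp [Nat.mul_mod]
    rw [e1, e2]
  rw [Finset.filter_congr (fun j _ => e j)]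
  have h56 : M % 56 < 56 := Nat.mod_lt _ (by norm_num)
  have h2' : M % 56 % 2 = 1 := by rw [Nat.mod_mod_of_dvd _ (by norm_num)]; exact h2
  have h7' : M % 56 % 7 ≠ 0 := by rw [Nat.mod_mod_of_dvd _ (by norm_num)]; exact h7
  generalize M % 56 = x at *
  clear e h2 h7
  revert x
  decide +kernel

end Vale.Agent.P027.L
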